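import Crest.Agent.N76.II.PDefs
import Crest.Agent.N76.II.Net
import Crest.Agent.N76.G.Iso
import Crest.Agent.N76.G.Gam
import Crest.Agent.N76.G.Hilb

-- ▼ part N76/II/CD1
section

/-! # Row 76: CD, step 1: a weak fractal `L²` bound from `SG` (helper73). -/

set_option autoImplicit false

open MeasureTheory Set Metric
open scoped ENNReal RealInnerProductSpace ComplexConjugate

namespace Crest.Agent.N76.II

open Crest.Agent.N76.Red (V)
open Crest.Agent.N76.G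

variable {d : ℕ}

namespace CD

/-- mass of the lines with direction in `A`, by a pointwise comparison on the frequency side -/
lemma freq_cmp {a : ℝ} (ha : 0 < a) (t : ℝ) {A : Set (V d)} (hA : MeasurableSet A)
    (φ ψ : L2 d) {c : ℝ} (hc : 0 ≤ c)
    (h : ∀ᵐ ξ, ∀ ζ ∈ A, Real.exp (-Real.pi * a ^ 2 * ‖ξ - ζ‖ ^ 2) * ‖φ ξ‖ ^ 2 ≤ c * ‖ψ ξ‖ ^ 2) :
    ∫ β in {β : Ph d | β.2 ∈ A}, ‖co a t φ β‖ ^ 2 ≤ c * 2 ^ d * ‖ψ‖ ^ 2 := by
  have hpi := Real.pi_pos
  set a' := a / Real.sqrt 2 with ha'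
  have ha'0 : 0 < a' := by positivity
  have ha'2 : 2 * a' ^ 2 = a ^ 2 := by
    rw [ha', div_pow, Real.sq_sqrt (by norm_num)]; ring
  have hAm : MeasurableSet {β : Ph d | β.2 ∈ A} := measurable_snd hA
  rw [← integral_co_sq ha'0 t, ← integral_const_mul, ← integral_indicator hAm]
  have i1 := (Iso.integrable_co_sq ha t φ).indicator hAm
  have i2 := (Iso.integrable_co_sq ha'0 t ψ).const_mul (c * 2 ^ d)
  rw [Measure.volume_eq_prod] at i1 i2 ⊢
  rw [integral_prod_symm _ i1, integral_prod_symm _ i2]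
  refine integral_mono i1.integral_prod_right i2.integral_prod_right fun ζ => ?_
  by_cases hζ : ζ ∈ A
  · have e1 : ∀ y : V d, {β : Ph d | β.2 ∈ A}.indicator (fun β => ‖co a t φ β‖ ^ 2) (y, ζ) =
        ‖co a t φ (y, ζ)‖ ^ 2 :=
      fun y => indicator_of_mem (show (y, ζ) ∈ {β : Ph d | β.2 ∈ A} from hζ) _
    simp only [e1]
    rw [integral_const_mul, (integral_co_sq_fst ha t φ ζ).2,
      (integral_co_sq_fst ha'0 t ψ ζ).2, ha'2, Real.mul_rpow (by norm_num) (by positivity)]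
    have e2 : (2 : ℝ) ^ ((d : ℝ) / 2) ≤ 2 ^ d := by
      rw [← Real.rpow_natCast]
      exact Real.rpow_le_rpow_of_exponent_le one_le_two (by linarith [Nat.cast_nonneg (α := ℝ) d])
    have e3 : ∫ ξ, Real.exp (-2 * Real.pi * a ^ 2 * ‖ξ - ζ‖ ^ 2) * ‖φ ξ‖ ^ 2 ≤
        c * ∫ ξ, Real.exp (-2 * Real.pi * a' ^ 2 * ‖ξ - ζ‖ ^ 2) * ‖ψ ξ‖ ^ 2 := by
      rw [← integral_const_mul]
      refine integral_mono_of_nonneg (.of_forall fun ξ => by positivity) ?_ ?_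
      · refine Integrable.const_mul ?_ _
        refine (Iso.integrable_norm_sq_L2 ψ).bdd_mul (c := 1)
          (Continuous.aestronglyMeasurable (by fun_prop)) (.of_forall fun ξ => ?_)
        rw [Real.norm_of_nonneg (Real.exp_pos _).le]
        refine Real.exp_le_one_iff.2 ?_
        have : 0 ≤ 2 * Real.pi * a' ^ 2 * ‖ξ - ζ‖ ^ 2 := by positivity
        linarith
      · filter_upwards [h] with ξ h1
        have f5 : -2 * Real.pi * a' ^ 2 = -Real.pi * a ^ 2 := by rw [← ha'2]; ring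
        rw [f5, show -2 * Real.pi * a ^ 2 * ‖ξ - ζ‖ ^ 2 = -Real.pi * a ^ 2 * ‖ξ - ζ‖ ^ 2 +
          -Real.pi * a ^ 2 * ‖ξ - ζ‖ ^ 2 by ring, Real.exp_add, mul_assoc, mul_left_comm c]
        exact mul_le_mul_of_nonneg_left (h1 ζ hζ) (Real.exp_pos _).le
    calc _ ≤ 2 ^ d * (a ^ 2) ^ ((d : ℝ) / 2) * (c *
          ∫ ξ, Real.exp (-2 * Real.pi * a' ^ 2 * ‖ξ - ζ‖ ^ 2) * ‖ψ ξ‖ ^ 2) := by
          gcongr
      _ = _ := by ring
  · have e1 : ∀ y : V d, {β : Ph d | β.2 ∈ A}.indicator (fun β => ‖co a t φ β‖ ^ 2) (y, ζ) = 0 :=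
      fun y => indicator_of_notMem (show (y, ζ) ∉ {β : Ph d | β.2 ∈ A} from hζ) _
    simp only [e1, integral_zero]
    positivity

lemma inner_pt (z : V d × ℝ) (H : L2 d) :
    inner ℂ (pt z) H = ∫ ξ, (((2 : ℝ) ^ ((d : ℝ) / 4) : ℝ) : ℂ) *
      Complex.exp (-(Real.pi : ℂ) * (1 - 2 * (z.2 : ℂ) * Complex.I) * ((‖ξ‖ ^ 2 : ℝ) : ℂ) +
        2 * (Real.pi : ℂ) * Complex.I * ((⟪z.1, ξ⟫ : ℝ) : ℂ)) * H ξ := by
  rw [pt, ← co, co_eq one_pos]
  simp only [conj_gamF, one_pow, mul_one, sub_zero, Complex.ofReal_one]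

lemma norm_sq_toLp {f : V d → ℂ} (hf : MemLp f 2 (volume : Measure (V d))) :
    ‖hf.toLp f‖ ^ 2 = ∫ ξ, ‖f ξ‖ ^ 2 := by
  rw [← Iso.integral_norm_sq_L2]
  exact integral_congr_ae (hf.coeFn_toLp.mono fun ξ hξ => by simp only [hξ])

/-- translation and parabolic rescaling -/
lemma exists_rescale {Λ : ℝ} (hΛ : 1 ≤ Λ) (u : V d × ℝ) (H : L2 d) :
    ∃ H' G : L2 d, (∀ z : V d × ℝ, inner ℂ (pt z) H =
        inner ℂ (pt (Λ • (z.1 - u.1), Λ ^ 2 * (z.2 - u.2))) H') ∧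
      ‖G‖ ^ 2 = Λ ^ d * ‖H‖ ^ 2 ∧
      ∀ᵐ ξ, ‖H' ξ‖ = Real.exp (-(Real.pi * (Λ ^ 2 - 1)) * ‖ξ‖ ^ 2) * ‖G ξ‖ := by
  have hΛ0 : 0 < Λ := by linarith
  have hpi := Real.pi_pos
  set g : V d → ℂ := fun ξ => ((Λ ^ d : ℝ) : ℂ) *
    Complex.exp (((2 * Real.pi * (u.2 * Λ ^ 2 * ‖ξ‖ ^ 2 + Λ * ⟪u.1, ξ⟫) : ℝ) : ℂ) * Complex.I) *
      H (Λ • ξ) with hg
  have hn : ∀ ξ, ‖g ξ‖ = Λ ^ d * ‖H (Λ • ξ)‖ := fun ξ => by
    rw [hg, norm_mul, norm_mul, Complex.norm_exp_ofReal_mul_I, mul_one, Complex.norm_real,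
      Real.norm_of_nonneg (by positivity)]
  have hq : Measure.QuasiMeasurePreserving (fun ξ : V d => Λ • ξ) volume volume := by
    refine ⟨by fun_prop, ?_⟩
    rw [Measure.map_addHaar_smul volume hΛ0.ne']
    exact Measure.smul_absolutelyContinuous
  have hm : AEStronglyMeasurable g volume :=
    (Continuous.aestronglyMeasurable (by fun_prop)).mul
      ((Lp.aestronglyMeasurable H).comp_quasiMeasurePreserving hq)
  have hi : Integrable (fun ξ => ‖H (Λ • ξ)‖ ^ 2) :=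
    (Iso.integrable_norm_sq_L2 H).comp_smul hΛ0.ne'
  have hg2 : MemLp g 2 volume := by
    rw [memLp_two_iff_integrable_sq_norm hm]
    refine (hi.const_mul ((Λ ^ d) ^ 2)).congr (.of_forall fun ξ => ?_)
    simp only [hn, mul_pow]
  set m : V d → ℝ := fun ξ => Real.exp (-(Real.pi * (Λ ^ 2 - 1)) * ‖ξ‖ ^ 2) with hmd
  have hm1 : ∀ ξ, m ξ ≤ 1 := fun ξ => by
    refine Real.exp_le_one_iff.2 ?_
    have : 0 ≤ Λ ^ 2 - 1 := by nlinarith
    have : 0 ≤ Real.pi * (Λ ^ 2 - 1) * ‖ξ‖ ^ 2 := by positivity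
    linarith
  have hn' : ∀ ξ, ‖(m ξ : ℂ) * g ξ‖ = m ξ * ‖g ξ‖ := fun ξ => by
    rw [norm_mul, Complex.norm_real, Real.norm_of_nonneg (Real.exp_pos _).le]
  have hh2 : MemLp (fun ξ => (m ξ : ℂ) * g ξ) 2 volume := by
    refine hg2.of_le ((Continuous.aestronglyMeasurable (by fun_prop)).mul hm)
      (.of_forall fun ξ => ?_)
    rw [hn']
    exact mul_le_of_le_one_left (norm_nonneg _) (hm1 ξ)
  refine ⟨hh2.toLp _, hg2.toLp _, fun z => ?_, ?_, ?_⟩
  · rw [inner_pt, inner_pt]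
    have e1 := Measure.integral_comp_smul (μ := (volume : Measure (V d)))
      (fun ξ => (((2 : ℝ) ^ ((d : ℝ) / 4) : ℝ) : ℂ) *
      Complex.exp (-(Real.pi : ℂ) * (1 - 2 * (z.2 : ℂ) * Complex.I) * ((‖ξ‖ ^ 2 : ℝ) : ℂ) +
        2 * (Real.pi : ℂ) * Complex.I * ((⟪z.1, ξ⟫ : ℝ) : ℂ)) * H ξ) Λ
    have e2 : Module.finrank ℝ (V d) = d := by simp
    rw [e2, abs_of_nonneg (by positivity)] at e1
    have e3 : ∀ x y : ℂ, x = (Λ ^ d)⁻¹ • y → y = ((Λ ^ d : ℝ) : ℂ) * x := fun x y h => by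
      rw [h, Complex.real_smul, ← mul_assoc, ← Complex.ofReal_mul, mul_inv_cancel₀ (by positivity)]
      simp
    rw [e3 _ _ e1, ← integral_const_mul]
    refine integral_congr_ae (hh2.coeFn_toLp.mono fun ξ hξ => ?_)
    simp only
    rw [hξ]
    simp only [hg, hmd, norm_smul, Real.norm_of_nonneg hΛ0.le, inner_smul_left,
      inner_smul_right, inner_sub_left, Complex.ofReal_exp, conj_trivial]
    have : ∀ A B C D x y h : ℂ, A = B + C + D → y * (x * Complex.exp A * h) =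
        x * Complex.exp B * (Complex.exp C * (y * Complex.exp D * h)) := by
      intro A B C D x y h e
      rw [e, Complex.exp_add, Complex.exp_add]; ring
    refine this _ _ _ _ _ _ _ ?_
    push_cast; ring
  · rw [norm_sq_toLp]
    simp only [hn, mul_pow]
    rw [integral_const_mul, Measure.integral_comp_smul (μ := (volume : Measure (V d)))
      (fun ξ => ‖H ξ‖ ^ 2), Iso.integral_norm_sq_L2, abs_of_nonneg (by positivity)]
    simp only [finrank_euclideanSpace, Fintype.card_fin, smul_eq_mul]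
    field_simp
  · filter_upwards [hh2.coeFn_toLp, hg2.coeFn_toLp] with ξ h1 h2
    rw [h1, h2, hn']

lemma ms_mono {ι α β : Type*} (X : Finset ι) {p : ι → α} {q : ι → β} {w : ι → ℝ}
    (hw : ∀ z ∈ X, 0 ≤ w z) {E : Set α} {F : Set β} (h : ∀ z ∈ X, p z ∈ E → q z ∈ F) :
    ms X p w E ≤ ms X q w F := by
  classical
  unfold ms
  refine Finset.sum_le_sum_of_subset_of_nonneg (fun z hz => ?_)
    (fun z hz _ => hw z (Finset.mem_filter.1 hz).1)
  rw [Finset.mem_filter] at hz ⊢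
  exact ⟨hz.1, h z hz.1 hz.2⟩

lemma ms_eq_sum {ι α : Type*} (X : Finset ι) {p : ι → α} (w : ι → ℝ) {E : Set α}
    (h : ∀ z ∈ X, p z ∈ E) : ms X p w E = ∑ z ∈ X, w z := by
  classical
  unfold ms
  rw [Finset.filter_true_of_mem h]

lemma norm_pt (z : V d × ℝ) : ‖pt z‖ = 1 := norm_gam one_pos _ _

lemma aux_sq {w x y z : ℝ} (hw : 0 ≤ w) (h : x ≤ (y + z) ^ 2) :
    w * x ≤ 2 * (w * y ^ 2) + 2 * (w * z ^ 2) := by
  have : x ≤ 2 * y ^ 2 + 2 * z ^ 2 := by nlinarith [sq_nonneg (y - z)]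
  nlinarith [mul_le_mul_of_nonneg_left this hw]

lemma aux_far {b a : ℝ} (hb2 : 2 ≤ b) (e1 : b ≤ a ^ 2) {ξ ζ : V d} (hζ' : 3 < ‖ζ‖) :
    -Real.pi * a ^ 2 * ‖ξ - ζ‖ ^ 2 + 2 * (-(Real.pi * (b ^ 2 - 1)) * ‖ξ‖ ^ 2) ≤ -b := by
  have hpi := Real.pi_gt_three
  have e0 : 0 ≤ b ^ 2 - 1 := by nlinarith
  rcases le_or_gt 1 ‖ξ‖ with h1 | h1
  · have e2 : 1 ≤ ‖ξ‖ ^ 2 := one_le_pow₀ h1
    have e3 : b ≤ Real.pi * (b ^ 2 - 1) := by nlinarith
    have e4 : 0 ≤ Real.pi * a ^ 2 * ‖ξ - ζ‖ ^ 2 := by positivity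
    have e6 : Real.pi * (b ^ 2 - 1) ≤ Real.pi * (b ^ 2 - 1) * ‖ξ‖ ^ 2 :=
      le_mul_of_one_le_right (by positivity) e2
    linarith
  · have e2 : 1 ≤ ‖ξ - ζ‖ := by
      have := norm_sub_norm_le ζ ξ
      rw [norm_sub_rev] at this; linarith
    have e3 : 1 ≤ ‖ξ - ζ‖ ^ 2 := one_le_pow₀ e2
    have e4 : 0 ≤ Real.pi * (b ^ 2 - 1) * ‖ξ‖ ^ 2 := by positivity
    have e5 : b ≤ Real.pi * a ^ 2 := by nlinarith
    have e6 : Real.pi * a ^ 2 ≤ Real.pi * a ^ 2 * ‖ξ - ζ‖ ^ 2 :=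
      le_mul_of_one_le_right (by positivity) e3
    linarith

set_option maxHeartbeats 400000 in
/-- weak fractal bound: any exponent below `1` is enough -/
theorem dzw (hSG : SG d) : ∃ a₀ C : ℝ, 1 / 2 ≤ a₀ ∧ a₀ < 1 ∧ 0 ≤ C ∧
    ∀ (ι : Type) (X : Finset ι) (p : ι → V d × ℝ) (w : ι → ℝ) (u : V d × ℝ) (r₀ : ℝ), 1 ≤ r₀ →
    (∀ z ∈ X, 0 ≤ w z) → (∀ z ∈ X, dist (p z) u ≤ r₀) →
    (∀ c r, 1 ≤ r → ms X p w (closedBall c r) ≤ r ^ d) →
    ∀ H : L2 d, En X p w (fun _ => H) ≤ C * r₀ ^ a₀ * ‖H‖ ^ 2 := by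
  have hpi := Real.pi_gt_three
  have hd0 : (0 : ℝ) ≤ d := Nat.cast_nonneg d
  obtain ⟨M₀, hM₀⟩ := hSG (1 / ((d : ℝ) + 2)) (by positivity) (2 * d)
  obtain ⟨M, hM, hM2⟩ : ∃ M : ℕ, M₀ ≤ M ∧ (d + 2) ^ 2 + 1 ≤ M := ⟨max _ _, le_max_left _ _,
    le_max_right _ _⟩
  obtain ⟨b₀, hb₀⟩ := hM₀ M hM
  have hM2' : ((d : ℝ) + 2) ^ 2 + 1 ≤ M := by exact_mod_cast hM2
  have hM5 : 5 ≤ M := le_trans (by nlinarith [Nat.zero_le d]) hM2
  have hM5' : (5 : ℝ) ≤ M := by exact_mod_cast hM5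
  set e₁ : ℝ := M * (2 * d + 3) / (d + 2) with he₁
  have he₁0 : 0 ≤ e₁ := by positivity
  set κ : ℝ := 1 / (2 * M - 2) with hκ
  have hκ0 : 0 < κ := by rw [hκ]; apply one_div_pos.2; linarith
  have hκ1 : κ ≤ 1 := by rw [hκ, div_le_one (by linarith)]; linarith
  obtain ⟨F, hF, hF'⟩ := exists_cover_three d
  set C₁ : ℝ := 2 * (7 ^ d + 1) + 2 * (2 * M * d).factorial * 2 ^ d with hC₁
  refine ⟨κ * (e₁ + d), C₁ * ((b₀ : ℝ) + 6) ^ (e₁ + d), ?_, ?_, by positivity, ?_⟩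
  · rw [hκ, one_div_mul_eq_div, le_div_iff₀ (by linarith)]
    have : (M : ℝ) ≤ e₁ := by rw [he₁, le_div_iff₀ (by positivity)]; nlinarith
    linarith
  · rw [hκ, one_div_mul_eq_div, div_lt_one (by linarith)]
    have : e₁ < 2 * M - 2 - d := by rw [he₁, div_lt_iff₀ (by positivity)]; nlinarith
    linarith
  intro ι X p w u r₀ hr₀ hw hX hms H
  set b : ℕ := b₀ + 2 + ⌈(3 * r₀) ^ κ⌉₊ with hb
  have hb2 : (2 : ℝ) ≤ b := by
    rw [hb]; push_cast
    linarith [Nat.cast_nonneg (α := ℝ) b₀, Nat.cast_nonneg (α := ℝ) ⌈(3 * r₀) ^ κ⌉₊]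
  have hb1 : (1 : ℝ) ≤ b := by linarith
  have hbn : 1 ≤ b := by exact_mod_cast hb1
  have hrκ : 1 ≤ r₀ ^ κ := Real.one_le_rpow hr₀ hκ0.le
  have hbup : (b : ℝ) ≤ (b₀ + 6) * r₀ ^ κ := by
    have e1 : (⌈(3 * r₀) ^ κ⌉₊ : ℝ) < (3 * r₀) ^ κ + 1 := Nat.ceil_lt_add_one (by positivity)
    have e2 : (3 * r₀) ^ κ ≤ 3 * r₀ ^ κ := by
      rw [Real.mul_rpow (by norm_num) (by linarith)]
      gcongr
      exact Real.rpow_le_self_of_one_le (by norm_num) hκ1
    rw [hb]; push_cast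
    nlinarith [Nat.cast_nonneg (α := ℝ) b₀]
  have hblo : 3 * r₀ ≤ (b : ℝ) ^ (2 * M - 2) := by
    have e1 : (3 * r₀) ^ κ ≤ b := by
      rw [hb]; push_cast
      linarith [Nat.le_ceil ((3 * r₀) ^ κ), Nat.cast_nonneg (α := ℝ) b₀]
    have e2 : ((3 * r₀) ^ κ) ^ (2 * M - 2) = 3 * r₀ := by
      rw [← Real.rpow_natCast, ← Real.rpow_mul (by positivity), Nat.cast_sub (by omega)]
      push_cast
      rw [hκ, one_div_mul_cancel (by linarith), Real.rpow_one]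
    rw [← e2]
    exact pow_le_pow_left₀ (by positivity) e1 _
  have hb2M : (b : ℝ) ^ (2 * M) = b ^ 2 * b ^ (2 * M - 2) := by
    rw [← pow_add]; congr 1; omega
  obtain ⟨H', G, hH', hG, hHG⟩ := exists_rescale hb1 (u.1, u.2 - r₀) H
  set p' : ι → V d × ℝ := fun z => ((b : ℝ) • ((p z).1 - u.1), (b : ℝ) ^ 2 * ((p z).2 - (u.2 - r₀)))
    with hp'
  have hX1 : ∀ z ∈ X, ‖(p z).1 - u.1‖ ≤ r₀ := fun z hz => by
    rw [← dist_eq_norm]; exact (le_max_left _ _).trans (hX z hz)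
  have hX2 : ∀ z ∈ X, |(p z).2 - u.2| ≤ r₀ := fun z hz => by
    rw [← Real.dist_eq]; exact (le_max_right _ _).trans (hX z hz)
  have ht : ∀ z ∈ X, 0 ≤ (p' z).2 ∧ (p' z).2 < (b : ℝ) ^ (2 * M) := fun z hz => by
    have := abs_le.1 (hX2 z hz)
    refine ⟨mul_nonneg (by positivity) (by linarith), ?_⟩
    rw [hb2M]
    exact mul_lt_mul_of_pos_left (by linarith) (by positivity)
  have hwin : ∀ z ∈ X, win b M (p' z).2 = 0 := fun z hz => by
    rw [win, Int.floor_eq_zero_iff]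
    exact ⟨div_nonneg (ht z hz).1 (by positivity), (div_lt_one (by positivity)).2 (ht z hz).2⟩
  have h4M : (b : ℝ) ^ (2 * M) ≤ b ^ (4 * M) := pow_le_pow_right₀ hb1 (by omega)
  have hball : ∀ z ∈ X, p' z ∈ closedBall (0 : V d × ℝ) ((b : ℝ) ^ (4 * M)) := fun z hz => by
    rw [mem_closedBall_zero_iff, Prod.norm_def]
    refine (max_le ?_ ?_).trans h4M
    · simp only [hp', norm_smul, Real.norm_of_nonneg (by linarith : (0 : ℝ) ≤ b)]
      rw [hb2M]
      exact mul_le_mul (by nlinarith) ((hX1 z hz).trans (by linarith)) (norm_nonneg _)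
        (by positivity)
    · rw [Real.norm_of_nonneg (ht z hz).1]; exact (ht z hz).2.le
  have hms' : ∀ c r, 1 ≤ r → ms X p' w (closedBall c r) ≤ r ^ d := fun c r hr => by
    refine le_trans (ms_mono X hw fun z _ hz => ?_)
      (hms (u.1 + (b : ℝ)⁻¹ • c.1, u.2 - r₀ + c.2 / (b : ℝ) ^ 2) r hr)
    rw [mem_closedBall, Prod.dist_eq, max_le_iff] at hz ⊢
    obtain ⟨h1, h2⟩ := hz
    simp only [hp', dist_eq_norm, Real.norm_eq_abs] at h1 h2 ⊢
    constructor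
    · have : (p z).1 - (u.1 + (b : ℝ)⁻¹ • c.1) = (b : ℝ)⁻¹ • ((b : ℝ) • ((p z).1 - u.1) - c.1) := by
        rw [smul_sub, smul_smul, inv_mul_cancel₀ (by linarith), one_smul]; abel
      rw [this, norm_smul, Real.norm_of_nonneg (by positivity)]
      exact (mul_le_of_le_one_left (norm_nonneg _) (inv_le_one_of_one_le₀ hb1)).trans h1
    · have : (p z).2 - (u.2 - r₀ + c.2 / (b : ℝ) ^ 2) =
          ((b : ℝ) ^ 2)⁻¹ * ((b : ℝ) ^ 2 * ((p z).2 - (u.2 - r₀)) - c.2) := by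
        field_simp; ring
      rw [this, abs_mul, abs_of_nonneg (by positivity)]
      exact (mul_le_of_le_one_left (abs_nonneg _)
        (inv_le_one_of_one_le₀ (one_le_pow₀ hb1))).trans h2
  set A : Set (Ph d) := {β | ‖β.2‖ ≤ 3} with hA
  have hAm : MeasurableSet A := (isClosed_le (by fun_prop) continuous_const).measurableSet
  have hS := hb₀ b (by omega) 0 M (Nat.zero_le _) le_rfl ι X p' w 0 hw hball hwin (fun _ _ => A)
    (fun _ _ => hAm) (fun _ _ β hβ => hβ) (7 ^ d) 1 (((b : ℝ) ^ M) ^ d) (by positivity)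
    zero_le_one (by positivity) (fun c => by simpa using hms' c 1 le_rfl)
    (fun c => hms' c _ (one_le_pow₀ hb1))
    (fun z _ => ⟨F, by simpa using hF, fun β hβ _ => by simpa using hF' β.2 hβ⟩) H'
  have hW : ∑ z ∈ X, w z ≤ (b : ℝ) ^ (2 * M * d) := by
    rw [← ms_eq_sum X w (E := closedBall u r₀) (p := p) hX, pow_mul]
    refine (hms u r₀ hr₀).trans (pow_le_pow_left₀ (by linarith) ?_ _)
    rw [hb2M]; nlinarith [one_le_pow₀ hb1 (n := 2)]
  have hW0 : 0 ≤ ∑ z ∈ X, w z := Finset.sum_nonneg hw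
  have hGH : ‖H'‖ ^ 2 ≤ ‖G‖ ^ 2 := by
    refine pow_le_pow_left₀ (norm_nonneg _) (Lp.norm_le_norm_of_ae_le ?_) 2
    filter_upwards [hHG] with ξ h
    rw [h]
    refine mul_le_of_le_one_left (norm_nonneg _) (Real.exp_le_one_iff.2 ?_)
    have : 0 ≤ (b : ℝ) ^ 2 - 1 := by nlinarith
    have : 0 ≤ Real.pi * ((b : ℝ) ^ 2 - 1) * ‖ξ‖ ^ 2 := by positivity
    linarith
  have ha : (0 : ℝ) < (b : ℝ) ^ M := by positivity
  have hfar : ‖loc ((b : ℝ) ^ M) 0 Aᶜ H'‖ ^ 2 ≤ Real.exp (-b) * 2 ^ d * ‖G‖ ^ 2 := by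
    refine (norm_loc_sq_le ha 0 hAm.compl H').trans ?_
    have hA' : MeasurableSet {ζ : V d | ¬ ‖ζ‖ ≤ 3} :=
      (isClosed_le continuous_norm continuous_const).measurableSet.compl
    refine freq_cmp ha 0 hA' H' G (Real.exp_pos _).le ?_
    filter_upwards [hHG] with ξ h ζ hζ
    rw [h, mul_pow, ← mul_assoc, ← Real.exp_nat_mul, ← Real.exp_add]
    gcongr
    push_cast
    exact aux_far hb2 (by rw [← pow_mul]; exact le_self_pow₀ hb1 (by omega)) (not_le.1 hζ)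
  have hsplit : En X p w (fun _ => H) ≤
      2 * En X p' w (fun z => tower b (fun _ _ => A) M M H' (p' z).2) +
        2 * (∑ z ∈ X, w z) * ‖loc ((b : ℝ) ^ M) 0 Aᶜ H'‖ ^ 2 := by
    unfold En
    rw [Finset.mul_sum, mul_assoc, Finset.sum_mul, Finset.mul_sum, ← Finset.sum_add_distrib]
    refine Finset.sum_le_sum fun z hz => ?_
    have e1 : tower b (fun _ _ => A) M M H' (p' z).2 = loc ((b : ℝ) ^ M) 0 A H' := by
      rw [tower_eq_loc b _ le_rfl, tower_top, lev, wt, hwin z hz]; simp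
    have e2 : H' = loc ((b : ℝ) ^ M) 0 A H' + loc ((b : ℝ) ^ M) 0 Aᶜ H' := by
      rw [← loc_union ha 0 hAm hAm.compl disjoint_compl_right, union_compl_self, loc_univ ha]
    have e3 : ‖inner ℂ (pt (p' z)) (loc ((b : ℝ) ^ M) 0 Aᶜ H')‖ ≤ ‖loc ((b : ℝ) ^ M) 0 Aᶜ H'‖ := by
      refine (norm_inner_le_norm _ _).trans ?_
      rw [norm_pt, one_mul]
    have e4 : ‖inner ℂ (pt (p z)) H‖ ≤ ‖inner ℂ (pt (p' z)) (loc ((b : ℝ) ^ M) 0 A H')‖ +
        ‖loc ((b : ℝ) ^ M) 0 Aᶜ H'‖ := by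
      rw [hH' (p z)]
      conv_lhs => rw [e2, inner_add_right]
      exact (norm_add_le _ _).trans (add_le_add le_rfl e3)
    simp only [e1]
    have e5 := pow_le_pow_left₀ (norm_nonneg _) e4 2
    exact aux_sq (hw z hz) e5
  have hexp : (b : ℝ) ^ (1 / ((d : ℝ) + 2) * M) * 7 ^ d * 1 ^ ((d : ℝ) / (d + 2)) *
      ((b : ℝ) ^ M * ((b : ℝ) ^ M) ^ d) ^ (2 / ((d : ℝ) + 2)) = 7 ^ d * (b : ℝ) ^ e₁ := by
    rw [Real.one_rpow, mul_one, ← pow_succ', ← pow_mul, ← Real.rpow_natCast (b : ℝ) (M * _),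
      ← Real.rpow_mul (by linarith), mul_right_comm, ← Real.rpow_add (by linarith), mul_comm]
    congr 2
    rw [he₁]; push_cast; field_simp; ring
  rw [hexp] at hS
  have hb3 : 1 ≤ (b : ℝ) ^ e₁ := Real.one_le_rpow hb1 he₁0
  have hq1 : (∑ z ∈ X, w z) / (b : ℝ) ^ (2 * d * M) ≤ 1 := by
    rw [div_le_one (by positivity), mul_right_comm]; exact hW
  have hq2 : (∑ z ∈ X, w z) * Real.exp (-b) ≤ (2 * M * d).factorial := by
    have := Real.pow_div_factorial_le_exp (b : ℝ) (by linarith) (2 * M * d)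
    rw [div_le_iff₀ (by positivity)] at this
    rw [Real.exp_neg, ← div_eq_mul_inv, div_le_iff₀ (Real.exp_pos _)]
    linarith
  have hfin : En X p w (fun _ => H) ≤ C₁ * (b : ℝ) ^ e₁ * ‖G‖ ^ 2 := by
    have e1 : En X p' w (fun z => tower b (fun _ _ => A) M M H' (p' z).2) ≤
        (7 ^ d + 1) * (b : ℝ) ^ e₁ * ‖G‖ ^ 2 := by
      refine hS.trans (mul_le_mul (by linarith) hGH (by positivity) (by positivity))
    have e2 : (∑ z ∈ X, w z) * ‖loc ((b : ℝ) ^ M) 0 Aᶜ H'‖ ^ 2 ≤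
        (2 * M * d).factorial * 2 ^ d * (b : ℝ) ^ e₁ * ‖G‖ ^ 2 := by
      calc _ ≤ (∑ z ∈ X, w z) * (Real.exp (-b) * 2 ^ d * ‖G‖ ^ 2) := by gcongr
        _ = (∑ z ∈ X, w z) * Real.exp (-b) * 2 ^ d * 1 * ‖G‖ ^ 2 := by ring
        _ ≤ _ := by gcongr
    calc _ ≤ _ := hsplit
      _ ≤ 2 * ((7 ^ d + 1) * (b : ℝ) ^ e₁ * ‖G‖ ^ 2) +
          2 * ((2 * M * d).factorial * 2 ^ d * (b : ℝ) ^ e₁ * ‖G‖ ^ 2) := by
          rw [mul_assoc 2 (∑ z ∈ X, w z)]; gcongr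
      _ = _ := by rw [hC₁]; ring
  refine hfin.trans ?_
  have e1 : (b : ℝ) ^ e₁ * (b : ℝ) ^ d ≤ ((b₀ : ℝ) + 6) ^ (e₁ + d) * r₀ ^ (κ * (e₁ + d)) := by
    rw [← Real.rpow_natCast (b : ℝ) d, ← Real.rpow_add (by linarith),
      Real.rpow_mul (by linarith), ← Real.mul_rpow (by positivity) (by positivity)]
    gcongr
  calc _ = C₁ * ((b : ℝ) ^ e₁ * (b : ℝ) ^ d) * ‖H‖ ^ 2 := by rw [hG]; ring
    _ ≤ C₁ * (((b₀ : ℝ) + 6) ^ (e₁ + d) * r₀ ^ (κ * (e₁ + d))) * ‖H‖ ^ 2 := by gcongr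
    _ = _ := by ring

end CD

end Crest.Agent.N76.II
end

-- ▼ part N76/II/CD

/-! # Row 76: CD, the operator norm of one cluster (helper73). -/

set_option autoImplicit false

open MeasureTheory Set Metric
open scoped ENNReal RealInnerProductSpace ComplexConjugate

namespace Crest.Agent.N76.II

open Crest.Agent.N76.Red (V)
open Crest.Agent.N76.G

variable {d : ℕ}

namespace CD

/-- decay of the Gram kernel -/
lemma gram_le (z z' : V d × ℝ) :
    ‖inner ℂ (pt z) (pt z')‖ ≤ Real.exp (d ^ 2) * (max 1 (dist z z')) ^ (-(d : ℝ) / 2) := by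
  have hpi := Real.pi_gt_three
  have hd0 : (0 : ℝ) ≤ d := Nat.cast_nonneg d
  rw [pt, pt, norm_inner_gam one_pos one_pos]
  set s := Real.sqrt (1 + (z.2 - z'.2) ^ 2) with hs
  have hs2 : s ^ 2 = 1 + (z.2 - z'.2) ^ 2 := Real.sq_sqrt (by positivity)
  have hs1 : 1 ≤ s := Real.one_le_sqrt.2 (by nlinarith [sq_nonneg (z.2 - z'.2)])
  have hs0 : 0 < s := by linarith
  have hst : |z.2 - z'.2| ≤ s := Real.abs_le_sqrt (by linarith)
  set y := ‖z.1 - z'.1‖ / s with hy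
  have hy0 : 0 ≤ y := by positivity
  have e1 : pre d 1 z.2 1 z'.2 = s ^ (-(d : ℝ) / 2) := by
    rw [pre, sig, show 4 * (1 : ℝ) ^ 2 * 1 ^ 2 / ((1 ^ 2 + 1 ^ 2) ^ 2 + 4 * (z.2 - z'.2) ^ 2) =
      s ^ (-2 : ℝ) by
        rw [Real.rpow_neg hs0.le, Real.rpow_two, hs2]; field_simp; ring, ← Real.rpow_mul hs0.le]
    congr 1; ring
  have e2 : Qf 1 z.2 1 z'.2 (((z.1, 0) : Ph d) - (z'.1, 0)) = y ^ 2 / 2 := by
    simp only [Qf, sig, pos, Prod.mk_sub_mk, sub_zero, smul_zero, norm_zero, hy, div_pow, hs2]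
    field_simp; ring
  rw [e1, e2]
  have e3 : max 1 (dist z z') ≤ s * (1 + y) := by
    have : s * (1 + y) = s + ‖z.1 - z'.1‖ := by rw [hy]; field_simp
    rw [this, Prod.dist_eq, dist_eq_norm, Real.dist_eq]
    have := norm_nonneg (z.1 - z'.1)
    exact max_le (by linarith) (max_le (by linarith) (by linarith))
  have e4 : (s * (1 + y)) ^ (-(d : ℝ) / 2) ≤ (max 1 (dist z z')) ^ (-(d : ℝ) / 2) :=
    Real.rpow_le_rpow_of_nonpos (lt_max_of_lt_left one_pos) e3 (by linarith)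
  refine le_trans ?_ (mul_le_mul_of_nonneg_left e4 (Real.exp_pos _).le)
  rw [Real.mul_rpow hs0.le (by linarith), mul_left_comm]
  refine mul_le_mul_of_nonneg_left ?_ (by positivity)
  have e5 : Real.exp y ^ (-(d : ℝ) / 2) ≤ (1 + y) ^ (-(d : ℝ) / 2) :=
    Real.rpow_le_rpow_of_nonpos (by linarith) (by linarith [Real.add_one_le_exp y]) (by linarith)
  refine le_trans ?_ (mul_le_mul_of_nonneg_left e5 (Real.exp_pos _).le)
  rw [← Real.exp_mul, ← Real.exp_add]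
  refine Real.exp_le_exp.2 ?_
  nlinarith [sq_nonneg (y - d), sq_nonneg y]

open Classical in
/-- shells -/
lemma shell_sum {ι α : Type*} [PseudoMetricSpace α] (X : Finset ι) (p : ι → α) (w : ι → ℝ)
    (hw : ∀ z ∈ X, 0 ≤ w z) (x : α) {ρ N : ℝ} (hρ : 0 < ρ) (hN : 0 ≤ N)
    (h : ∀ r, ρ ≤ r → ms X p w (closedBall x r) ≤ N * (r / ρ) ^ (1 / 4 : ℝ)) :
    ∑ z ∈ X.filter (fun z => ρ ≤ dist x (p z)), w z * (ρ / dist x (p z)) ^ (1 / 2 : ℝ) ≤ 4 * N := by
  obtain ⟨K, hK⟩ : ∃ K : ℕ, ∀ z ∈ X, dist x (p z) < ρ * 16 ^ K := by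
    obtain ⟨D, hD⟩ := (X.image fun z => dist x (p z)).bddAbove
    obtain ⟨K, hK⟩ := pow_unbounded_of_one_lt (D / ρ) (by norm_num : (1 : ℝ) < 16)
    refine ⟨K, fun z hz => lt_of_le_of_lt (hD (by simpa using ⟨z, hz, rfl⟩)) ?_⟩
    rwa [div_lt_iff₀' hρ] at hK
  have h16 : ∀ k : ℕ, ((16 : ℝ) ^ k) ^ (1 / 4 : ℝ) = 2 ^ k := fun k => by
    rw [show (16 : ℝ) ^ k = (2 ^ k) ^ 4 by rw [← pow_mul, mul_comm, pow_mul]; norm_num,
      ← Real.rpow_natCast _ 4, ← Real.rpow_mul (by positivity)]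
    norm_num
  calc _ ≤ ∑ z ∈ X.filter (fun z => ρ ≤ dist x (p z)), ∑ k ∈ Finset.range K,
        (if p z ∈ closedBall x (ρ * 16 ^ (k + 1)) then w z else 0) * (1 / 4) ^ k := by
        refine Finset.sum_le_sum fun z hz => ?_
        obtain ⟨hzX, hz⟩ := Finset.mem_filter.1 hz
        obtain ⟨k, hk1, hk2⟩ := exists_nat_pow_near (x := dist x (p z) / ρ) (y := 16)
          ((one_le_div hρ).2 hz) (by norm_num)
        have hkK : k < K := by
          have : (16 : ℝ) ^ k < 16 ^ K := hk1.trans_lt ((div_lt_iff₀' hρ).2 (hK z hzX))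
          exact (pow_lt_pow_iff_right₀ (by norm_num)).1 this
        refine le_trans ?_ (Finset.single_le_sum (f := fun k =>
          (if p z ∈ closedBall x (ρ * 16 ^ (k + 1)) then w z else 0) * (1 / 4 : ℝ) ^ k)
          (fun k _ => mul_nonneg (by split_ifs; exacts [hw z hzX, le_rfl]) (by positivity))
          (Finset.mem_range.2 hkK))
        rw [if_pos (by rw [mem_closedBall, dist_comm]; exact ((div_lt_iff₀' hρ).1 hk2).le)]
        refine mul_le_mul_of_nonneg_left ?_ (hw z hzX)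
        have e1 : ρ / dist x (p z) ≤ ((1 / 4) ^ k) ^ 2 := by
          rw [← inv_div, ← pow_mul, mul_comm, pow_mul,
            show ((1 / 4 : ℝ) ^ 2) = 16⁻¹ by norm_num, inv_pow]
          exact inv_anti₀ (by positivity) hk1
        refine (Real.rpow_le_rpow (by positivity) e1 (by norm_num)).trans (le_of_eq ?_)
        rw [← Real.rpow_natCast _ 2, ← Real.rpow_mul (by positivity)]
        norm_num
    _ ≤ ∑ z ∈ X, ∑ k ∈ Finset.range K,
        (if p z ∈ closedBall x (ρ * 16 ^ (k + 1)) then w z else 0) * (1 / 4) ^ k := by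
        refine Finset.sum_le_sum_of_subset_of_nonneg (Finset.filter_subset _ _) fun z hz _ => ?_
        exact Finset.sum_nonneg fun k _ =>
          mul_nonneg (by split_ifs; exacts [hw z hz, le_rfl]) (by positivity)
    _ = ∑ k ∈ Finset.range K, ms X p w (closedBall x (ρ * 16 ^ (k + 1))) * (1 / 4) ^ k := by
        rw [Finset.sum_comm]
        refine Finset.sum_congr rfl fun k _ => ?_
        rw [← Finset.sum_mul, ms, Finset.sum_filter]
    _ ≤ ∑ k ∈ Finset.range K, 2 * N * (1 / 2) ^ k := by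
        refine Finset.sum_le_sum fun k _ => ?_
        have := h (ρ * 16 ^ (k + 1)) (le_mul_of_one_le_right hρ.le (one_le_pow₀ (by norm_num)))
        rw [mul_div_cancel_left₀ _ hρ.ne', h16] at this
        refine (mul_le_mul_of_nonneg_right this (by positivity)).trans (le_of_eq ?_)
        rw [pow_succ, show (1 / 2 : ℝ) ^ k = 2 ^ k * (1 / 4) ^ k by rw [← mul_pow]; norm_num]
        ring
    _ ≤ 4 * N := by
        rw [← Finset.mul_sum]
        nlinarith [sum_geometric_two_le K]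

open Classical in
/-- far Schur sum -/
lemma far_sum (hd : 1 ≤ d) {ι : Type*} (X : Finset ι) (p : ι → V d × ℝ) (w : ι → ℝ)
    (hw : ∀ z ∈ X, 0 ≤ w z) {N₁ K₀ ρ : ℝ} (hN : 0 ≤ N₁) (hρ : 1 ≤ ρ) (hρK : ρ ≤ K₀) (x : V d × ℝ)
    (h : ∀ r, 0 ≤ r → ms X p w (closedBall x r) ≤ N₁ * (max 1 (r / K₀)) ^ (1 / 4 : ℝ)) :
    ∑ z ∈ X.filter (fun z => ρ ≤ dist x (p z)), w z * ‖inner ℂ (pt x) (pt (p z))‖ ≤
      4 * Real.exp (d ^ 2) * N₁ * ρ ^ (-(d : ℝ) / 2) := by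
  have hρ0 : 0 < ρ := by linarith
  have hd1 : (1 : ℝ) ≤ d := by exact_mod_cast hd
  have h1 := shell_sum X p w hw x hρ0 hN fun r hr => (h r (by linarith)).trans (by
    refine mul_le_mul_of_nonneg_left (Real.rpow_le_rpow (by positivity) ?_ (by norm_num)) hN
    exact max_le ((one_le_div hρ0).2 hr) (div_le_div_of_nonneg_left (by linarith) hρ0 hρK))
  calc _ ≤ ∑ z ∈ X.filter (fun z => ρ ≤ dist x (p z)), Real.exp (d ^ 2) * ρ ^ (-(d : ℝ) / 2) *
        (w z * (ρ / dist x (p z)) ^ (1 / 2 : ℝ)) := by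
        refine Finset.sum_le_sum fun z hz => ?_
        obtain ⟨hzX, hz⟩ := Finset.mem_filter.1 hz
        rw [mul_left_comm, mul_assoc]
        refine mul_le_mul_of_nonneg_left ((gram_le _ _).trans ?_) (hw z hzX)
        refine mul_le_mul_of_nonneg_left ?_ (Real.exp_pos _).le
        have hD : 0 < dist x (p z) := by linarith
        rw [max_eq_right (hρ.trans hz)]
        have e1 : dist x (p z) ^ (-(d : ℝ) / 2) =
            ρ ^ (-(d : ℝ) / 2) * (ρ / dist x (p z)) ^ ((d : ℝ) / 2) := by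
          rw [Real.div_rpow hρ0.le hD.le, neg_div, Real.rpow_neg hρ0.le, Real.rpow_neg hD.le]
          have : 0 < ρ ^ ((d : ℝ) / 2) := by positivity
          field_simp
        rw [e1]
        refine mul_le_mul_of_nonneg_left ?_ (by positivity)
        exact Real.rpow_le_rpow_of_exponent_ge (by positivity) ((div_le_one hD).2 hz) (by linarith)
    _ ≤ _ := by
        rw [← Finset.mul_sum]
        refine (mul_le_mul_of_nonneg_left h1 (by positivity)).trans (le_of_eq (by ring))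

/-- abstract near/far decomposition of a Gram matrix -/
lemma gram_split {E : Type*} [NormedAddCommGroup E] [InnerProductSpace ℂ E] {ι κ : Type*}
    [DecidableEq κ] (X : Finset ι) (T : Finset κ) (π : ι → κ) (hπ : ∀ z ∈ X, π z ∈ T)
    (ψ : ι → E) (nr : κ → κ → Prop) [DecidableRel nr] (hsym : ∀ c c', nr c c' → nr c' c)
    {L D F : ℝ} (hD0 : 0 ≤ D) (hL : ∀ c ∈ T, ((T.filter (nr c)).card : ℝ) ≤ L)
    (hD : ∀ c ∈ T, ∀ u : ι → ℂ, ‖∑ z ∈ X.filter (fun z => π z = c), u z • ψ z‖ ^ 2 ≤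
      D * ∑ z ∈ X.filter (fun z => π z = c), ‖u z‖ ^ 2)
    (G : ι → ι → ℝ) (hG0 : ∀ z ∈ X, ∀ z' ∈ X, 0 ≤ G z z')
    (hG : ∀ z ∈ X, ∀ z' ∈ X, ∀ s t : ℝ, 0 ≤ s → 0 ≤ t → ¬ nr (π z) (π z') →
      s * t * ‖inner ℂ (ψ z) (ψ z')‖ ≤ (s ^ 2 * G z z' + t ^ 2 * G z' z) / 2)
    (hF : ∀ z ∈ X, ∑ z' ∈ X, G z z' ≤ F) (u : ι → ℂ) :
    ‖∑ z ∈ X, u z • ψ z‖ ^ 2 ≤ (L * D + F) * ∑ z ∈ X, ‖u z‖ ^ 2 := by
  set S : κ → E := fun c => ∑ z ∈ X.filter (fun z => π z = c), u z • ψ z with hS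
  have e1 : ∑ z ∈ X, u z • ψ z = ∑ c ∈ T, S c := (Finset.sum_fiberwise_of_maps_to hπ _).symm
  have e2 : ∑ c ∈ T, ‖S c‖ ^ 2 ≤ D * ∑ z ∈ X, ‖u z‖ ^ 2 := by
    rw [← Finset.sum_fiberwise_of_maps_to hπ (fun z => ‖u z‖ ^ 2), Finset.mul_sum]
    exact Finset.sum_le_sum fun c hc => hD c hc u
  set B : ι → ι → ℝ := fun z z' => (‖u z‖ ^ 2 * G z z' + ‖u z'‖ ^ 2 * G z' z) / 2 with hB
  have hB0 : ∀ z ∈ X, ∀ z' ∈ X, 0 ≤ B z z' := fun z hz z' hz' => by
    have := hG0 z hz z' hz'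
    have := hG0 z' hz' z hz
    positivity
  have e3 : ∀ c ∈ T, ∀ c' ∈ T, ‖inner ℂ (S c) (S c')‖ ≤
      (if nr c c' then (‖S c‖ ^ 2 + ‖S c'‖ ^ 2) / 2 else 0) +
      ∑ z ∈ X.filter (fun z => π z = c), ∑ z' ∈ X.filter (fun z => π z = c'), B z z' := by
    intro c _ c' _
    have p0 : 0 ≤ ∑ z ∈ X.filter (fun z => π z = c), ∑ z' ∈ X.filter (fun z => π z = c'), B z z' :=
      Finset.sum_nonneg fun z hz => Finset.sum_nonneg fun z' hz' =>
        hB0 z (Finset.mem_filter.1 hz).1 z' (Finset.mem_filter.1 hz').1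
    split_ifs with hn
    · have := norm_inner_le_norm (𝕜 := ℂ) (S c) (S c')
      nlinarith [sq_nonneg (‖S c‖ - ‖S c'‖)]
    · rw [zero_add, hS]
      simp only
      rw [sum_inner]
      refine (norm_sum_le _ _).trans (Finset.sum_le_sum fun z hz => ?_)
      rw [inner_sum]
      refine (norm_sum_le _ _).trans (Finset.sum_le_sum fun z' hz' => ?_)
      obtain ⟨hz1, rfl⟩ := Finset.mem_filter.1 hz
      obtain ⟨hz1', rfl⟩ := Finset.mem_filter.1 hz'
      rw [inner_smul_left, inner_smul_right, norm_mul, norm_mul, RCLike.norm_conj, ← mul_assoc]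
      exact hG z hz1 z' hz1' _ _ (norm_nonneg _) (norm_nonneg _) hn
  have e4 : ‖∑ c ∈ T, S c‖ ^ 2 ≤ ∑ c ∈ T, ∑ c' ∈ T, ‖inner ℂ (S c) (S c')‖ := by
    rw [← inner_self_eq_norm_sq (𝕜 := ℂ)]
    refine (RCLike.re_le_norm _).trans ?_
    rw [sum_inner]
    refine (norm_sum_le _ _).trans (Finset.sum_le_sum fun c _ => ?_)
    rw [inner_sum]
    exact norm_sum_le _ _
  have e5 : ∑ c ∈ T, ∑ c' ∈ T, (if nr c c' then (‖S c‖ ^ 2 + ‖S c'‖ ^ 2) / 2 else 0) ≤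
      L * ∑ c ∈ T, ‖S c‖ ^ 2 := by
    have f1 : ∑ c ∈ T, ∑ c' ∈ T, (if nr c c' then ‖S c‖ ^ 2 / 2 else 0) ≤
        L / 2 * ∑ c ∈ T, ‖S c‖ ^ 2 := by
      rw [Finset.mul_sum]
      refine Finset.sum_le_sum fun c hc => ?_
      rw [← Finset.sum_filter, Finset.sum_const, nsmul_eq_mul]
      nlinarith [hL c hc, sq_nonneg ‖S c‖]
    have f2 : ∑ c ∈ T, ∑ c' ∈ T, (if nr c c' then ‖S c'‖ ^ 2 / 2 else 0) =
        ∑ c ∈ T, ∑ c' ∈ T, (if nr c c' then ‖S c‖ ^ 2 / 2 else 0) := by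
      rw [Finset.sum_comm]
      refine Finset.sum_congr rfl fun c _ => Finset.sum_congr rfl fun c' _ => ?_
      exact if_congr ⟨hsym _ _, hsym _ _⟩ rfl rfl
    have f3 : ∑ c ∈ T, ∑ c' ∈ T, (if nr c c' then (‖S c‖ ^ 2 + ‖S c'‖ ^ 2) / 2 else 0) =
        ∑ c ∈ T, ∑ c' ∈ T, (if nr c c' then ‖S c‖ ^ 2 / 2 else 0) +
        ∑ c ∈ T, ∑ c' ∈ T, (if nr c c' then ‖S c'‖ ^ 2 / 2 else 0) := by
      rw [← Finset.sum_add_distrib]
      refine Finset.sum_congr rfl fun c _ => ?_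
      rw [← Finset.sum_add_distrib]
      refine Finset.sum_congr rfl fun c' _ => ?_
      split_ifs <;> ring
    rw [f3, f2]; linarith
  have e6 : ∑ c ∈ T, ∑ c' ∈ T, ∑ z ∈ X.filter (fun z => π z = c),
      ∑ z' ∈ X.filter (fun z => π z = c'), B z z' = ∑ z ∈ X, ∑ z' ∈ X, B z z' := by
    rw [← Finset.sum_fiberwise_of_maps_to hπ (fun z => ∑ z' ∈ X, B z z')]
    refine Finset.sum_congr rfl fun c _ => ?_
    rw [Finset.sum_comm]
    exact Finset.sum_congr rfl fun z _ => Finset.sum_fiberwise_of_maps_to hπ _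
  have e7 : ∑ z ∈ X, ∑ z' ∈ X, B z z' ≤ F * ∑ z ∈ X, ‖u z‖ ^ 2 := by
    have f1 : ∑ z ∈ X, ∑ z' ∈ X, ‖u z‖ ^ 2 * G z z' ≤ F * ∑ z ∈ X, ‖u z‖ ^ 2 := by
      rw [Finset.mul_sum]
      refine Finset.sum_le_sum fun z hz => ?_
      rw [← Finset.mul_sum, mul_comm]
      exact mul_le_mul_of_nonneg_right (hF z hz) (by positivity)
    have f2 : ∑ z ∈ X, ∑ z' ∈ X, ‖u z'‖ ^ 2 * G z' z = ∑ z ∈ X, ∑ z' ∈ X, ‖u z‖ ^ 2 * G z z' :=
      Finset.sum_comm
    simp only [hB, add_div, Finset.sum_add_distrib, ← Finset.sum_div]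
    rw [f2]; linarith
  have hL0 : 0 ≤ L ∨ T = ∅ := by
    rcases T.eq_empty_or_nonempty with h | ⟨c, hc⟩
    · exact Or.inr h
    · exact Or.inl ((Nat.cast_nonneg _).trans (hL c hc))
  rw [e1]
  refine e4.trans ((Finset.sum_le_sum fun c hc => Finset.sum_le_sum fun c' hc' =>
    e3 c hc c' hc').trans ?_)
  simp only [Finset.sum_add_distrib]
  rw [e6]
  rcases hL0 with hL0 | hT
  · have := mul_le_mul_of_nonneg_left e2 hL0
    linarith
  · have hX : X = ∅ := Finset.eq_empty_of_forall_notMem fun z hz => by simpa [hT] using hπ z hz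
    simp [hX, hT]

lemma En_eq {ι : Type*} (X : Finset ι) (p : ι → V d × ℝ) {w : ι → ℝ} (hw : ∀ z ∈ X, 0 ≤ w z)
    (H : L2 d) : En X p w (fun _ => H) =
      ∑ z ∈ X, ‖inner ℂ (((Real.sqrt (w z) : ℝ) : ℂ) • pt (p z)) H‖ ^ 2 := by
  refine Finset.sum_congr rfl fun z hz => ?_
  rw [inner_smul_left, norm_mul, RCLike.norm_conj, Complex.norm_real,
    Real.norm_of_nonneg (Real.sqrt_nonneg _), mul_pow, Real.sq_sqrt (hw z hz)]

end CD

open CD in
/-- **CD** -/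
theorem cd_of (d : ℕ) (hd : 1 ≤ d) (hSG : SG d) : CD d := by
  classical
  obtain ⟨a₀, C₀, ha₀, ha₁, hC₀, hdz⟩ := dzw hSG
  have hd1 : (1 : ℝ) ≤ d := by exact_mod_cast hd
  set a := a₀ / (a₀ + d / 2) with ha
  have hs1 : 1 ≤ a₀ + d / 2 := by linarith
  have ha0 : 0 < a := by positivity
  have ha2 : a < 2 / ((d : ℝ) + 2) := by
    rw [ha, div_lt_div_iff₀ (by linarith) (by linarith)]; nlinarith
  have ha1 : a ≤ 1 := ha2.le.trans ((div_le_one (by linarith)).2 (by linarith))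
  set E := Real.exp (d ^ 2) with hE
  have hE1 : 1 ≤ E := Real.one_le_exp (by positivity)
  refine ⟨a, 7 ^ (d + 1) * C₀ + 5 * E, ha0, ha2, by positivity, ?_⟩
  intro ι X p w hw N₁ K₀ hN hNK hK hball hms H
  rcases le_total N₁ 1 with hN1 | hN1
  · rw [min_eq_left (Real.self_le_rpow_of_le_one hN.le hN1 ha1)]
    refine (bessel_schur X (fun z => pt (p z)) w hw (D := 5 * E * N₁) (by positivity)
      (fun z hz => ?_) H).trans (by gcongr; exact le_add_of_nonneg_left (by positivity))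
    rw [← Finset.sum_filter_add_sum_filter_not X (fun z' => 1 ≤ dist (p z) (p z'))]
    have h1 := far_sum hd X p w hw hN.le le_rfl hK (p z) (hms z hz)
    rw [Real.one_rpow, mul_one] at h1
    have h2 : ∑ z' ∈ X.filter (fun z' => ¬ 1 ≤ dist (p z) (p z')),
        w z' * ‖inner ℂ (pt (p z)) (pt (p z'))‖ ≤ N₁ := by
      have h3 := hms z hz 1 zero_le_one
      rw [max_eq_left ((div_le_one (by linarith)).2 hK), Real.one_rpow, mul_one] at h3
      refine le_trans ?_ h3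
      unfold ms
      refine (Finset.sum_le_sum fun z' hz' => ?_).trans
        (Finset.sum_le_sum_of_subset_of_nonneg (fun z' hz' => ?_)
          fun z' hz' _ => hw z' (Finset.mem_filter.1 hz').1)
      · refine mul_le_of_le_one_right (hw z' (Finset.mem_filter.1 hz').1) ?_
        exact (norm_inner_le_norm _ _).trans (by rw [norm_pt, norm_pt, one_mul])
      · rw [Finset.mem_filter] at hz' ⊢
        exact ⟨hz'.1, by rw [mem_closedBall, dist_comm]; exact (not_le.1 hz'.2).le⟩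
    nlinarith
  · rw [min_eq_right (Real.rpow_le_self_of_one_le hN1 ha1)]
    set r₀ := N₁ ^ (1 / (a₀ + d / 2)) with hr₀
    have hr1 : 1 ≤ r₀ := Real.one_le_rpow hN1 (by positivity)
    have hr0 : 0 < r₀ := by linarith
    have hrK : r₀ ≤ K₀ :=
      (Real.rpow_le_self_of_one_le hN1 ((div_le_one (by linarith)).2 hs1)).trans hNK
    have hp1 : r₀ ^ a₀ = N₁ ^ a := by
      rw [hr₀, ← Real.rpow_mul hN.le, ha, one_div_mul_eq_div]
    have hp2 : N₁ * r₀ ^ (-(d : ℝ) / 2) = N₁ ^ a := by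
      rw [hr₀, ← Real.rpow_mul hN.le, ← Real.rpow_one_add' hN.le, ha]
      · congr 1; field_simp; ring
      · have : 1 + 1 / (a₀ + d / 2) * (-(d : ℝ) / 2) = a := by rw [ha]; field_simp; ring
        rw [this]; exact ha0.ne'
    obtain ⟨T, hTX, hsep, hnet⟩ := exists_net X p hr0
    choose! π hπT hπ using hnet
    have hNa : 0 ≤ N₁ ^ a := by positivity
    rw [En_eq X p hw]
    refine le_trans ((bessel_iff_gram X _ (D := 7 ^ (d + 1) * (C₀ * N₁ ^ a) + 4 * E * N₁ ^ a)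
      (by positivity)).2 (fun u => ?_) H) (by gcongr; nlinarith)
    refine gram_split X T π hπT _ (fun c c' => dist (p c) (p c') ≤ 3 * r₀)
      (fun c c' h => by rwa [dist_comm]) (by positivity) (fun c _ => ?_) (fun c hc => ?_)
      (fun z z' => if r₀ ≤ dist (p z) (p z') then w z' * ‖inner ℂ (pt (p z)) (pt (p z'))‖ else 0)
      (fun z _ z' hz' => ?_) (fun z hz z' hz' s t hs ht hn => ?_) (fun z hz => ?_) u
    · refine (card_le_of_sep_st _ p (p c) (r := 3 * r₀) (by positivity) hr0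
        (fun c' hc' => by rw [dist_comm]; exact (Finset.mem_filter.1 hc').2)
        (fun c₁ h₁ c₂ h₂ => hsep c₁ (Finset.mem_filter.1 h₁).1 c₂
          (Finset.mem_filter.1 h₂).1)).trans (le_of_eq ?_)
      congr 1; field_simp; ring
    · have hw' : ∀ z ∈ X.filter (fun z => π z = c), 0 ≤ w z :=
        fun z hz => hw z (Finset.mem_filter.1 hz).1
      have hc' : ∀ z ∈ X.filter (fun z => π z = c), dist (p z) (p c) ≤ r₀ := fun z hz => by
        obtain ⟨hz1, rfl⟩ := Finset.mem_filter.1 hz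
        exact (hπ z hz1).le
      have hsub : ∀ A, ms (X.filter fun z => π z = c) p w A ≤ ms X p w A := fun A => by
        unfold ms
        exact Finset.sum_le_sum_of_subset_of_nonneg
          (Finset.filter_subset_filter _ (Finset.filter_subset _ _))
          fun z hz _ => hw z (Finset.mem_filter.1 hz).1
      have hK' : K₀ ≤ (d + 1) * K₀ := le_mul_of_one_le_left (by linarith) (by linarith)
      refine (bessel_iff_gram _ _ (by positivity)).1 fun H' => ?_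
      rw [← En_eq _ p hw', ← hp1]
      refine hdz ι _ p w (p c) r₀ hr1 hw' hc' (fun x r hr => ?_) H'
      rcases le_total r r₀ with h | h
      · exact (hsub _).trans (hball x r hr (by linarith))
      · refine (ms_mono _ hw' (F := closedBall (p c) r₀) (q := p) fun z hz _ => hc' z hz).trans
          ((hsub _).trans ((hball _ r₀ hr1 (by linarith)).trans ?_))
        exact pow_le_pow_left₀ hr0.le h _
    · have := hw z' hz'
      split_ifs <;> positivity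
    · have h1 : r₀ ≤ dist (p z) (p z') := by
        have := dist_triangle4 (p (π z)) (p z) (p z') (p (π z'))
        have h2 := hπ z hz
        have h3 := hπ z' hz'
        rw [dist_comm] at h2
        linarith [not_le.1 hn]
      rw [if_pos h1, if_pos (by rwa [dist_comm]), inner_smul_left, inner_smul_right, norm_mul,
        norm_mul, RCLike.norm_conj, Complex.norm_real, Complex.norm_real,
        Real.norm_of_nonneg (Real.sqrt_nonneg _), Real.norm_of_nonneg (Real.sqrt_nonneg _),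
        norm_inner_symm (pt (p z'))]
      set g := ‖inner ℂ (pt (p z)) (pt (p z'))‖
      have hg : 0 ≤ g := norm_nonneg _
      have e1 := Real.sq_sqrt (hw z hz)
      have e2 := Real.sq_sqrt (hw z' hz')
      set x := Real.sqrt (w z)
      set y := Real.sqrt (w z')
      rw [← e1, ← e2]
      nlinarith [mul_nonneg hg (sq_nonneg (s * y - t * x))]
    · rw [← Finset.sum_filter]
      refine (far_sum hd X p w hw hN.le hr1 hrK (p z) (hms z hz)).trans (le_of_eq ?_)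
      rw [← hp2]; ring

end Crest.Agent.N76.II
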